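import Vale.Agent.P219W.Rows

/-!
# P219W: the hyperboloid model is a complete metric of constant curvature
-/

open scoped Manifold ContDiff RealInnerProductSpace
open Set

set_option maxSynthPendingDepth 3

noncomputable section

namespace Vale.Agent.P219W13

open Vale.Agent.P255 (RMetric coefIn Riem IsGeo curveIn)
open Vale.Agent.P219.Co (E sn)
open Vale.Agent.P219.Mfd
open Vale.Agent.P219.RG
open Vale.Agent.P219W

variable {n : ℕ} {κ : ℝ}

/-- the Euclidean inner product -/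
def ip (n : ℕ) : E n →L[ℝ] E n →L[ℝ] ℝ := innerSL ℝ

theorem ip_apply (v w : E n) : ip n v w = ⟪v, w⟫ := rfl

/-- the metric of the model -/
def hm (κ : ℝ) (y : E n) : E n →L[ℝ] E n →L[ℝ] ℝ :=
  ip n + (κ * (1 - κ * ⟪y, y⟫)⁻¹) • (ip n y).smulRight (ip n y)

theorem hm_apply (y v w : E n) :
    hm κ y v w = ⟪v, w⟫ + κ * (1 - κ * ⟪y, y⟫)⁻¹ * (⟪y, v⟫ * ⟪y, w⟫) := by
  simp [hm, ip_apply]

theorem den_pos (hk : κ ≤ 0) (y : E n) : 0 < 1 - κ * ⟪y, y⟫ := by
  have := real_inner_self_nonneg (x := y)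
  nlinarith

theorem contDiff_hm (hk : κ ≤ 0) : ContDiff ℝ ∞ (hm (n := n) κ) := by
  have h1 : ContDiff ℝ ∞ (fun y : E n => (1 - κ * ⟪y, y⟫)⁻¹) :=
    (contDiff_const.sub (contDiff_const.mul (contDiff_id.inner ℝ contDiff_id))).inv
      fun y => (den_pos hk y).ne'
  have h2 : ContDiff ℝ ∞ (fun y : E n => ip n y) := (ip n).contDiff
  exact contDiff_const.add ((contDiff_const.mul h1).smul (h2.smulRight h2))

theorem isMetricOn_hm (hk : κ ≤ 0) : IsMetricOn (hm (n := n) κ) univ where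
  isOpen := isOpen_univ
  smooth := (contDiff_hm hk).contDiffOn
  symm u _ v w := by rw [hm_apply, hm_apply, real_inner_comm v w]; ring
  pos u _ v hv := by
    have hd := den_pos hk u
    have h1 : 0 < ⟪v, v⟫ := real_inner_self_pos.2 hv
    have h2 : ⟪u, v⟫ * ⟪u, v⟫ ≤ ⟪u, u⟫ * ⟪v, v⟫ := real_inner_mul_inner_self_le u v
    have h3 : ⟪v, v⟫ + κ * (1 - κ * ⟪u, u⟫)⁻¹ * (⟪u, v⟫ * ⟪u, v⟫) =
        (⟪v, v⟫ + -κ * (⟪u, u⟫ * ⟪v, v⟫ - ⟪u, v⟫ * ⟪u, v⟫)) / (1 - κ * ⟪u, u⟫) := by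
      field_simp
      ring
    rw [hm_apply, h3]
    exact div_pos (add_pos_of_pos_of_nonneg h1
      (mul_nonneg (neg_nonneg.2 hk) (sub_nonneg.2 h2))) hd

theorem fderiv_hm (hk : κ ≤ 0) (y x v w : E n) : fderiv ℝ (hm κ) y x v w =
    2 * κ ^ 2 * (1 - κ * ⟪y, y⟫)⁻¹ ^ 2 * ⟪y, x⟫ * (⟪y, v⟫ * ⟪y, w⟫) +
      κ * (1 - κ * ⟪y, y⟫)⁻¹ * (⟪x, v⟫ * ⟪y, w⟫ + ⟪y, v⟫ * ⟪x, w⟫) := by
  have hl : HasDerivAt (fun t : ℝ => y + t • x) x 0 := by
    simpa using ((hasDerivAt_id (0 : ℝ)).smul_const x).const_add y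
  have h1 : HasDerivAt (fun t : ℝ => hm κ (y + t • x)) (fderiv ℝ (hm κ) y x) 0 := by
    have := ((contDiff_hm hk).differentiable (by simp) (y + (0 : ℝ) • x)).hasFDerivAt
    have h0 := this.comp_hasDerivAt (0 : ℝ) hl
    rw [zero_smul, add_zero] at h0
    exact h0
  have h2 := (h1.clm_apply (hasDerivAt_const (0 : ℝ) v)).clm_apply (hasDerivAt_const (0 : ℝ) w)
  have hd : (1 - κ * ⟪y + (0 : ℝ) • x, y + (0 : ℝ) • x⟫) ≠ 0 := (den_pos hk _).ne'
  have h3 := ((((((hl.inner ℝ hl).const_mul κ).const_sub 1).inv hd).const_mul κ).mul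
    ((hl.inner ℝ (hasDerivAt_const (0 : ℝ) v)).mul
      (hl.inner ℝ (hasDerivAt_const (0 : ℝ) w)))).const_add ⟪v, w⟫
  have h4 := h2.unique (h3.congr_of_eventuallyEq (Filter.Eventually.of_forall fun t =>
    hm_apply _ _ _))
  simp only [map_zero, add_zero, zero_smul, inner_zero_right, zero_add, Pi.inv_apply,
    Pi.mul_apply, real_inner_comm y x] at h4
  rw [h4]
  field_simp
  ring

theorem chris_hm (hk : κ ≤ 0) (y v w : E n) : chris (hm κ) y v w = (κ * hm κ y v w) • y := by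
  have h := isMetricOn_hm (n := n) hk
  have hd := (den_pos hk y).ne'
  refine h.ext_of (mem_univ y) fun z => ?_
  rw [h.chris_spec (mem_univ y), fderiv_hm hk, fderiv_hm hk, fderiv_hm hk, map_smul,
    smul_apply, hm_apply, hm_apply, smul_eq_mul, real_inner_comm v w,
    real_inner_comm v z, real_inner_comm w z]
  field_simp
  ring

theorem curv_hm (hk : κ ≤ 0) (y x a b : E n) :
    curv (hm κ) y x a b = κ • (hm κ y a b • x - hm κ y x b • a) := by
  have h := isMetricOn_hm (n := n) hk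
  have hD : ∀ x a : E n, fderiv ℝ (fun p => chris (hm κ) p a b) y x =
      (κ * hm κ y a b) • x + (κ * fderiv ℝ (hm κ) y x a b) • y := by
    intro x a
    simp only [chris_hm hk]
    have h1 := ((((h.differentiableAt (mem_univ y)).hasFDerivAt.clm_apply
      (hasFDerivAt_const a y)).clm_apply (hasFDerivAt_const b y)).const_mul κ).smul
      (hasFDerivAt_id y)
    refine (congrArg (fun L => L x) h1.fderiv).trans ?_
    simp
  unfold curv
  rw [hD, hD, h.chris_compat (mem_univ y), h.chris_compat (mem_univ y)]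
  simp only [chris_hm hk, map_smul, smul_apply, smul_eq_mul]
  rw [h.symm y (mem_univ y) a x]
  module

/-- the model metric -/
def mm (hk : κ ≤ 0) : Metric (E n) (E n) where
  coef _ := hm κ
  smooth _ := (contDiff_hm hk).contDiffOn
  symm _ u _ := (isMetricOn_hm hk).symm u (mem_univ u)
  pos _ u _ := (isMetricOn_hm hk).pos u (mem_univ u)
  compat a b u _ _ v w := by
    have : trans (E n) a b = id := rfl
    rw [this, fderiv_id]
    rfl

theorem coef_mm (hk : κ ≤ 0) (a : E n) : (toMetric (mm hk).toR).coef a = hm κ :=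
  funext fun u => coefL_toR (mm hk) a (mem_univ u)

theorem hasDerivAt_sn (b t : ℝ) : HasDerivAt (sn b) (Real.cosh (b * t)) t := by
  unfold sn
  split_ifs with hb
  · simpa [hb] using hasDerivAt_id' t
  · have := ((hasDerivAt_id' t).const_mul b).sinh.div_const b
    refine this.congr_deriv ?_
    field_simp

theorem mul_sn (b t : ℝ) : b * sn b t = Real.sinh (b * t) := by
  unfold sn
  split_ifs with hb
  · simp [hb]
  · field_simp

theorem aux {D P Q L : ℝ} (hD : D ≠ 0) (h : L * D + κ * P * D + κ ^ 2 * Q ^ 2 = 0) :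
    κ * (P + κ * D⁻¹ * (Q * Q)) = -L := by
  field_simp
  linear_combination h

theorem geo_mm (hk : κ ≤ 0) (y v : E n) {b : ℝ} (hb : b ^ 2 = -κ * hm κ y v v) :
    IsGeodesic (toMetric (mm hk).toR) (fun t => Real.cosh (b * t) • y + sn b t • v) ∧
    ∀ t, HasDerivAt (fun t => Real.cosh (b * t) • y + sn b t • v)
      ((b ^ 2 * sn b t) • y + Real.cosh (b * t) • v) t := by
  have hc : ∀ t, HasDerivAt (fun t => Real.cosh (b * t)) (b ^ 2 * sn b t) t := fun t => by
    refine (((hasDerivAt_id' t).const_mul b).cosh).congr_deriv ?_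
    rw [← mul_sn]; ring
  have h1 : ∀ t, HasDerivAt (fun t => Real.cosh (b * t) • y + sn b t • v)
      ((b ^ 2 * sn b t) • y + Real.cosh (b * t) • v) t := fun t =>
    ((hc t).smul_const y).add ((hasDerivAt_sn b t).smul_const v)
  refine ⟨?_, h1⟩
  refine isGeodesicOn_of_chart (g := toMetric (mm hk).toR) (0 : E n)
    (c := fun t => Real.cosh (b * t) • y + sn b t • v)
    (w := fun t => (b ^ 2 * sn b t) • y + Real.cosh (b * t) • v) isOpen_univ
    fun t _ => ⟨mem_univ _, h1 t, ?_⟩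
  refine ((((hasDerivAt_sn b t).const_mul (b ^ 2)).smul_const y).add
    ((hc t).smul_const v)).congr_deriv ?_
  rw [coef_mm, chris_hm hk]
  have hs : Real.cosh (b * t) ^ 2 - b ^ 2 * sn b t ^ 2 = 1 := by
    rw [← mul_pow, mul_sn]; exact Real.cosh_sq_sub_sinh_sq _
  generalize Real.cosh (b * t) = c at hs
  generalize sn b t = s at hs
  have key : κ * hm κ (c • y + s • v) ((b ^ 2 * s) • y + c • v) ((b ^ 2 * s) • y + c • v) =
      -b ^ 2 := by
    have hd := (den_pos hk (c • y + s • v)).ne'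
    have hd0 := (den_pos hk y).ne'
    rw [hm_apply] at hb ⊢
    refine aux hd ?_
    simp only [inner_add_left, inner_add_right, real_inner_smul_left, real_inner_smul_right,
      real_inner_comm y v]
    generalize b ^ 2 = L at *
    generalize ⟪y, y⟫ = A at *
    generalize ⟪y, v⟫ = B at *
    generalize ⟪v, v⟫ = C at *
    have hb' : L * (1 - κ * A) + κ * C * (1 - κ * A) + κ ^ 2 * B ^ 2 = 0 := by
      rw [hb]; field_simp; ring
    linear_combination hb' - (κ * (L * A - C) + κ ^ 2 * (A * C - B ^ 2) *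
      (c ^ 2 - L * s ^ 2 + 1)) * hs
  rw [key]
  module

theorem isGeo_of {g : RMetric (E n) (E n)} {γ : ℝ → E n} (h : IsGeodesic (toMetric g) γ) :
    IsGeo g γ := by
  refine ⟨h.continuous, fun a t ha => ?_⟩
  obtain ⟨e1, e2, e3⟩ := h.eqn a t (mem_univ t) ha
  refine ⟨e1, e2, ?_⟩
  rw [covDer_eq (F := coefIn g a) ((toMetric g).isMetricOn a) (fun _ _ _ _ => rfl) (mem_univ _)]
  exact add_eq_zero_iff_eq_neg.2 e3

theorem mod_ (hk : κ ≤ 0) : MOD n κ := by
  have h := isMetricOn_hm (n := n) hk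
  refine ⟨(mm hk).toR, fun y v w => ?_, fun p (v : E n) => ?_, fun a u _ v w => ?_,
    fun u hu => ?_⟩
  · change hm κ y v w = _
    rw [hm_apply, real_inner_self_eq_norm_sq]
    ring
  · obtain ⟨h1, h2⟩ := geo_mm hk p v (b := √(-κ * hm κ p v v))
      (Real.sq_sqrt (mul_nonneg (neg_nonneg.2 hk) (h.nonneg (mem_univ p) v)))
    have h0 : ∀ b, sn b 0 = 0 := fun b => by simp [sn]
    refine ⟨_, isGeo_of h1, by simp [h0], ?_⟩
    rw [mfderiv_eq_fderiv]
    refine ((h2 0).deriv).trans ?_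
    simp [h0]
  · have hF : ∀ u ∈ (univ : Set (E n)), ∀ v w, coefIn (mm hk).toR a u v w = hm κ u v w :=
      fun u _ v w => by rw [← coef_mm hk a]; rfl
    rw [riem_eq h hF (mem_univ u), curv_hm hk]
    simp only [hF u (mem_univ u), map_smul, map_sub, smul_apply,
      sub_apply, smul_eq_mul]
    rw [h.symm u (mem_univ u) w v]
    ring
  · have h1 := (geo_mm hk 0 u (b := √(-κ)) (by
      rw [Real.sq_sqrt (neg_nonneg.2 hk), hm_apply, real_inner_self_eq_norm_sq, hu]; simp)).1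
    simpa using h1

end Vale.Agent.P219W13
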